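import Mathlib.Data.Real.Basic
import Mathlib.Tactic.Linarith

/-!
P330, Brouwer block: the finite dimensional lemma.  The scalars are the selector `s`, the anchor
`c`, the height `z`, the distance `d` of `Y` from the start word and the rejection rates `rx`, `ry`
of the two tests.  The gates of `s`, `c`, `z` are the predicates `PS`, `PC`, `PZ`.
-/

namespace Vale.Agent.P330.B

/-- the six scalars -/
structure Pt where
  /-- selector -/
  s : ℝ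
  /-- anchor -/
  c : ℝ
  /-- height -/
  z : ℝ
  /-- distance of `Y` from the start word -/
  d : ℝ
  /-- rejection rate of the test of `X` -/
  rx : ℝ
  /-- rejection rate of the test of `Y` -/
  ry : ℝ

/-- all scalars differ by at most `ε` -/
structure Near (ε : ℝ) (p q : Pt) : Prop where
  s : |q.s - p.s| ≤ ε
  c : |q.c - p.c| ≤ ε
  z : |q.z - p.z| ≤ ε
  d : |q.d - p.d| ≤ ε
  rx : |q.rx - p.rx| ≤ ε
  ry : |q.ry - p.ry| ≤ ε

/-- the gate of the selector -/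
def PS (p : Pt) : Prop :=
  (9 / 10 < p.z ∧ 2 * p.c < p.s + 1 / 2) ∨ (8 / 10 < p.z ∧ p.z ≤ 9 / 10 ∧ 1 / 2 < p.s) ∨
    (p.z ≤ 8 / 10 ∧ 3 / 2 < p.s + 2 * p.c)

/-- the gate of the anchor -/
def PC (Δ : ℝ) (p : Pt) : Prop :=
  (9 / 10 < p.z ∧ 3 / 2 < p.c + 2 * p.s) ∨ (8 / 10 < p.z ∧ p.z ≤ 9 / 10 ∧ 1 / 2 < p.c) ∨
    (1 / 2 < p.z ∧ p.z ≤ 8 / 10 ∧ Δ / 2 ≤ p.d ∧ 2 * p.s < p.c + 1 / 2)

/-- the region around the curve -/
def PU (Δ : ℝ) (p : Pt) : Prop :=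
  (Δ / 2 ≤ p.d ∧ 7 / 10 < p.z ∧ (p.s < 1 / 4 ∨ 3 / 4 < p.s ∨ p.c < 1 / 4 ∨ 3 / 4 < p.c)) ∨
    (p.d < Δ / 2 ∧ p.c < 1 / 4 ∧ (p.s < 1 / 4 ∨ 7 / 10 < p.z))

/-- the gate of the height -/
def PZ (Δ θ : ℝ) (p : Pt) : Prop :=
  (p.c < 6 / 10 → p.rx < θ / 2) ∧ (4 / 10 < p.c → p.ry < θ / 2) ∧ PU Δ p

/-- The value `v` is almost `1` if the predicate holds near `p`, almost `0` if it fails near
`p`. -/
structure Cmp (ε : ℝ) (P : Pt → Prop) (p : Pt) (v : ℝ) : Prop where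
  one : (∀ q, Near ε p q → P q) → 99 / 100 ≤ v
  zero : (∀ q, Near ε p q → ¬ P q) → v ≤ 1 / 100

theorem Cmp.ex_not {ε : ℝ} {P : Pt → Prop} {p : Pt} {v : ℝ} (h : Cmp ε P p v)
    (hv : v < 99 / 100) : ∃ q, Near ε p q ∧ ¬ P q := by
  by_contra hc
  push Not at hc
  exact absurd (h.one hc) (not_le.2 hv)

theorem Cmp.ex {ε : ℝ} {P : Pt → Prop} {p : Pt} {v : ℝ} (h : Cmp ε P p v)
    (hv : 1 / 100 < v) : ∃ q, Near ε p q ∧ P q := by
  by_contra hc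
  push Not at hc
  exact absurd (h.zero hc) (not_le.2 hv)

section

variable {ε Δ θ : ℝ} {p : Pt}

/-- what `PS` near `p` means -/
theorem ps_one (hε : ε ≤ 1 / 100) (h : Cmp ε PS p p.s) (hv : 1 / 100 < p.s) :
    (89 / 100 ≤ p.z ∧ 2 * p.c ≤ p.s + 53 / 100) ∨
      (79 / 100 ≤ p.z ∧ p.z ≤ 91 / 100 ∧ 49 / 100 ≤ p.s) ∨
      (p.z ≤ 81 / 100 ∧ 147 / 100 ≤ p.s + 2 * p.c) := by
  obtain ⟨q, hq, h⟩ := h.ex hv
  have h1 := abs_le.1 hq.s
  have h2 := abs_le.1 hq.c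
  have h3 := abs_le.1 hq.z
  rcases h with h | h | h
  · exact Or.inl ⟨by linarith [h.1], by linarith [h.2]⟩
  · exact Or.inr (Or.inl ⟨by linarith [h.1], by linarith [h.2.1], by linarith [h.2.2]⟩)
  · exact Or.inr (Or.inr ⟨by linarith [h.1], by linarith [h.2]⟩)

theorem ps_zero (hε : ε ≤ 1 / 100) (h : Cmp ε PS p p.s) (hv : p.s < 99 / 100) :
    (89 / 100 ≤ p.z ∧ p.s + 47 / 100 ≤ 2 * p.c) ∨
      (79 / 100 ≤ p.z ∧ p.z ≤ 91 / 100 ∧ p.s ≤ 51 / 100) ∨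
      (p.z ≤ 81 / 100 ∧ p.s + 2 * p.c ≤ 153 / 100) := by
  obtain ⟨q, hq, h⟩ := h.ex_not hv
  have h1 := abs_le.1 hq.s
  have h2 := abs_le.1 hq.c
  have h3 := abs_le.1 hq.z
  unfold PS at h
  push Not at h
  obtain ⟨ha, hb, hc⟩ := h
  rcases lt_or_ge (9 / 10) q.z with h9 | h9
  · exact Or.inl ⟨by linarith, by linarith [ha h9]⟩
  · rcases lt_or_ge (8 / 10) q.z with h8 | h8
    · exact Or.inr (Or.inl ⟨by linarith, by linarith, by linarith [hb h8 h9]⟩)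
    · exact Or.inr (Or.inr ⟨by linarith, by linarith [hc h8]⟩)

theorem pc_one (hε : ε ≤ 1 / 100) (hεΔ : ε ≤ Δ / 8) (h : Cmp ε (PC Δ) p p.c) (hv : 1 / 100 < p.c) :
    (89 / 100 ≤ p.z ∧ 147 / 100 ≤ p.c + 2 * p.s) ∨
      (79 / 100 ≤ p.z ∧ p.z ≤ 91 / 100 ∧ 49 / 100 ≤ p.c) ∨
      (49 / 100 ≤ p.z ∧ p.z ≤ 81 / 100 ∧ 3 * Δ / 8 ≤ p.d ∧ 2 * p.s ≤ p.c + 53 / 100) := by
  obtain ⟨q, hq, h⟩ := h.ex hv
  have h1 := abs_le.1 hq.s
  have h2 := abs_le.1 hq.c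
  have h3 := abs_le.1 hq.z
  have h4 := abs_le.1 hq.d
  rcases h with h | h | h
  · exact Or.inl ⟨by linarith [h.1], by linarith [h.2]⟩
  · exact Or.inr (Or.inl ⟨by linarith [h.1], by linarith [h.2.1], by linarith [h.2.2]⟩)
  · exact Or.inr (Or.inr ⟨by linarith [h.1], by linarith [h.2.1], by linarith [h.2.2.1],
      by linarith [h.2.2.2]⟩)

theorem pc_zero (hε : ε ≤ 1 / 100) (hεΔ : ε ≤ Δ / 8) (h : Cmp ε (PC Δ) p p.c)
    (hv : p.c < 99 / 100) :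
    (89 / 100 ≤ p.z ∧ p.c + 2 * p.s ≤ 153 / 100) ∨
      (79 / 100 ≤ p.z ∧ p.z ≤ 91 / 100 ∧ p.c ≤ 51 / 100) ∨
      (p.z ≤ 81 / 100 ∧ (p.z ≤ 51 / 100 ∨ p.d ≤ 5 * Δ / 8 ∨ p.c + 47 / 100 ≤ 2 * p.s)) := by
  obtain ⟨q, hq, h⟩ := h.ex_not hv
  have h1 := abs_le.1 hq.s
  have h2 := abs_le.1 hq.c
  have h3 := abs_le.1 hq.z
  have h4 := abs_le.1 hq.d
  unfold PC at h
  push Not at h
  obtain ⟨ha, hb, hc⟩ := h
  rcases lt_or_ge (9 / 10) q.z with h9 | h9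
  · exact Or.inl ⟨by linarith, by linarith [ha h9]⟩
  · rcases lt_or_ge (8 / 10) q.z with h8 | h8
    · exact Or.inr (Or.inl ⟨by linarith, by linarith, by linarith [hb h8 h9]⟩)
    · refine Or.inr (Or.inr ⟨by linarith, ?_⟩)
      rcases lt_or_ge (1 / 2) q.z with h5 | h5
      · rcases le_or_gt (Δ / 2) q.d with hd | hd
        · exact Or.inr (Or.inr (by linarith [hc h5 h8 hd]))
        · exact Or.inr (Or.inl (by linarith))
      · exact Or.inl (by linarith)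

/-- At the top the field turns forward: only the centre is stationary. -/
theorem top_centre (hε : ε ≤ 1 / 100) (hεΔ : ε ≤ Δ / 8) (s0 : 0 ≤ p.s) (s1 : p.s ≤ 1)
    (c0 : 0 ≤ p.c) (c1 : p.c ≤ 1) (hs : Cmp ε PS p p.s)
    (hc : Cmp ε (PC Δ) p p.c) (hz : 92 / 100 ≤ p.z) :
    4 / 10 ≤ p.s ∧ p.s ≤ 6 / 10 ∧ 4 / 10 ≤ p.c ∧ p.c ≤ 6 / 10 := by
  have a1 : 1 / 100 < p.s → 2 * p.c ≤ p.s + 53 / 100 := fun h => by
    rcases ps_one hε hs h with h | h | h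
    exacts [h.2, by linarith [h.2.1], by linarith [h.1]]
  have a2 : p.s < 99 / 100 → p.s + 47 / 100 ≤ 2 * p.c := fun h => by
    rcases ps_zero hε hs h with h | h | h
    exacts [h.2, by linarith [h.2.1], by linarith [h.1]]
  have a3 : 1 / 100 < p.c → 147 / 100 ≤ p.c + 2 * p.s := fun h => by
    rcases pc_one hε hεΔ hc h with h | h | h
    exacts [h.2, by linarith [h.2.1], by linarith [h.2.1]]
  have a4 : p.c < 99 / 100 → p.c + 2 * p.s ≤ 153 / 100 := fun h => by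
    rcases pc_zero hε hεΔ hc h with h | h | h
    exacts [h.2, by linarith [h.2.1], by linarith [h.1]]
  have b1 : p.s < 99 / 100 := by
    by_contra h
    have h1 := a1 (by linarith)
    have h2 := a4 (by linarith)
    linarith
  have b2 := a2 b1
  have b3 := a3 (by linarith)
  have b4 := a1 (by linarith)
  have b5 := a4 (by linarith)
  exact ⟨by linarith, by linarith, by linarith, by linarith⟩

/-- At the bottom face the field turns backward: only the centre is stationary. -/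
theorem bot_centre (hε : ε ≤ 1 / 100) (hΔ : 0 < Δ) (hεΔ : ε ≤ Δ / 8) (s0 : 0 ≤ p.s) (s1 : p.s ≤ 1)
    (c0 : 0 ≤ p.c) (c1 : p.c ≤ 1) (hs : Cmp ε PS p p.s)
    (hc : Cmp ε (PC Δ) p p.c) (hz : 69 / 100 ≤ p.z) (hz' : p.z ≤ 71 / 100)
    (hd : 3 * Δ / 4 ≤ p.d) :
    4 / 10 ≤ p.s ∧ p.s ≤ 6 / 10 ∧ 4 / 10 ≤ p.c ∧ p.c ≤ 6 / 10 := by
  have a1 : 1 / 100 < p.s → 147 / 100 ≤ p.s + 2 * p.c := fun h => by
    rcases ps_one hε hs h with h | h | h
    exacts [by linarith [h.1], by linarith [h.1], h.2]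
  have a2 : p.s < 99 / 100 → p.s + 2 * p.c ≤ 153 / 100 := fun h => by
    rcases ps_zero hε hs h with h | h | h
    exacts [by linarith [h.1], by linarith [h.1], h.2]
  have a3 : 1 / 100 < p.c → 2 * p.s ≤ p.c + 53 / 100 := fun h => by
    rcases pc_one hε hεΔ hc h with h | h | h
    exacts [by linarith [h.1], by linarith [h.1], h.2.2.2]
  have a4 : p.c < 99 / 100 → p.c + 47 / 100 ≤ 2 * p.s := fun h => by
    rcases pc_zero hε hεΔ hc h with h | h | ⟨-, h | h | h⟩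
    exacts [by linarith [h.1], by linarith [h.1], by linarith, by linarith, h]
  have b1 : p.s < 99 / 100 := by
    by_contra h
    have h1 := a1 (by linarith)
    have h2 := a3 (by linarith)
    linarith
  have b2 := a2 b1
  have b3 := a4 (by linarith)
  have b4 := a1 (by linarith)
  have b5 := a3 (by linarith)
  exact ⟨by linarith, by linarith, by linarith, by linarith⟩

theorem wall_lo {s c : ℝ} (b1 : 49 / 100 ≤ s ∨ 147 / 100 ≤ s + 2 * c)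
    (b2 : s ≤ 51 / 100 ∨ s + 2 * c ≤ 153 / 100) (b3 : 49 / 100 ≤ c ∨ 2 * s ≤ c + 53 / 100)
    (b4 : c ≤ 51 / 100 ∨ c + 47 / 100 ≤ 2 * s) :
    3 / 10 ≤ s ∧ s ≤ 7 / 10 ∧ 3 / 10 ≤ c ∧ c ≤ 7 / 10 := by
  rcases b1 with b1 | b1 <;> rcases b2 with b2 | b2 <;> rcases b3 with b3 | b3 <;>
    rcases b4 with b4 | b4 <;> exact ⟨by linarith, by linarith, by linarith, by linarith⟩

theorem wall_hi {s c : ℝ} (b1 : 49 / 100 ≤ s ∨ 2 * c ≤ s + 53 / 100)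
    (b2 : s ≤ 51 / 100 ∨ s + 47 / 100 ≤ 2 * c) (b3 : 49 / 100 ≤ c ∨ 147 / 100 ≤ c + 2 * s)
    (b4 : c ≤ 51 / 100 ∨ c + 2 * s ≤ 153 / 100) :
    3 / 10 ≤ s ∧ s ≤ 7 / 10 ∧ 3 / 10 ≤ c ∧ c ≤ 7 / 10 := by
  rcases b1 with b1 | b1 <;> rcases b2 with b2 | b2 <;> rcases b3 with b3 | b3 <;>
    rcases b4 with b4 | b4 <;> exact ⟨by linarith, by linarith, by linarith, by linarith⟩

/-- On the inner wall the field does not vanish. -/
theorem wall (hε : ε ≤ 1 / 100) (hΔ : 0 < Δ) (hεΔ : ε ≤ Δ / 8) (hs : Cmp ε PS p p.s)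
    (hc : Cmp ε (PC Δ) p p.c) (hz : 69 / 100 ≤ p.z) (hd : 3 * Δ / 4 ≤ p.d)
    (s0 : 24 / 100 ≤ p.s) (s1 : p.s ≤ 76 / 100) (c0 : 24 / 100 ≤ p.c) (c1 : p.c ≤ 76 / 100) :
    3 / 10 ≤ p.s ∧ p.s ≤ 7 / 10 ∧ 3 / 10 ≤ p.c ∧ p.c ≤ 7 / 10 := by
  have a1 := ps_one hε hs (by linarith)
  have a2 := ps_zero hε hs (by linarith)
  have a3 := pc_one hε hεΔ hc (by linarith)
  have a4 := pc_zero hε hεΔ hc (by linarith)
  rcases le_total p.z (85 / 100) with h | h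
  · have b1 : 49 / 100 ≤ p.s ∨ 147 / 100 ≤ p.s + 2 * p.c := by
      rcases a1 with h | h | h
      exacts [by linarith [h.1], Or.inl h.2.2, Or.inr h.2]
    have b2 : p.s ≤ 51 / 100 ∨ p.s + 2 * p.c ≤ 153 / 100 := by
      rcases a2 with h | h | h
      exacts [by linarith [h.1], Or.inl h.2.2, Or.inr h.2]
    have b3 : 49 / 100 ≤ p.c ∨ 2 * p.s ≤ p.c + 53 / 100 := by
      rcases a3 with h | h | h
      exacts [by linarith [h.1], Or.inl h.2.2, Or.inr h.2.2.2]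
    have b4 : p.c ≤ 51 / 100 ∨ p.c + 47 / 100 ≤ 2 * p.s := by
      rcases a4 with h | h | ⟨-, h | h | h⟩
      exacts [by linarith [h.1], Or.inl h.2.2, by linarith, by linarith, Or.inr h]
    exact wall_lo b1 b2 b3 b4
  · have b1 : 49 / 100 ≤ p.s ∨ 2 * p.c ≤ p.s + 53 / 100 := by
      rcases a1 with h | h | h
      exacts [Or.inr h.2, Or.inl h.2.2, by linarith [h.1]]
    have b2 : p.s ≤ 51 / 100 ∨ p.s + 47 / 100 ≤ 2 * p.c := by
      rcases a2 with h | h | h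
      exacts [Or.inr h.2, Or.inl h.2.2, by linarith [h.1]]
    have b3 : 49 / 100 ≤ p.c ∨ 147 / 100 ≤ p.c + 2 * p.s := by
      rcases a3 with h | h | h
      exacts [Or.inr h.2, Or.inl h.2.2, by linarith [h.2.1]]
    have b4 : p.c ≤ 51 / 100 ∨ p.c + 2 * p.s ≤ 153 / 100 := by
      rcases a4 with h | h | h
      exacts [Or.inr h.2, Or.inl h.2.2, by linarith [h.1]]
    exact wall_hi b1 b2 b3 b4

/-- the closed neighbourhood of the region around the curve -/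
def PU' (Δ : ℝ) (p : Pt) : Prop :=
  (3 * Δ / 8 ≤ p.d ∧ 69 / 100 ≤ p.z ∧
      (p.s ≤ 26 / 100 ∨ 74 / 100 ≤ p.s ∨ p.c ≤ 26 / 100 ∨ 74 / 100 ≤ p.c)) ∨
    (p.d ≤ 5 * Δ / 8 ∧ p.c ≤ 26 / 100 ∧ (p.s ≤ 26 / 100 ∨ 69 / 100 ≤ p.z))

/-- The finite dimensional lemma: given the facts on the data, there is no stationary point. -/
theorem no_zero (hε : ε ≤ 1 / 100) (hΔ : 0 < Δ) (hθ : 0 < θ) (hεΔ : ε ≤ Δ / 8) (hεθ : ε ≤ θ / 8)
    (s0 : 0 ≤ p.s) (s1 : p.s ≤ 1) (c0 : 0 ≤ p.c) (c1 : p.c ≤ 1)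
    (hs : Cmp ε PS p p.s) (hc : Cmp ε (PC Δ) p p.c) (hz : Cmp ε (PZ Δ θ) p p.z)
    (hA : p.z ≤ 1 / 100 → p.c ≤ 1 / 100 → p.s ≤ 1 / 100 → p.d ≤ Δ / 4 ∧ p.rx ≤ θ / 4)
    (hB : (p.c ≤ 1 / 2 → p.rx ≤ θ) → (1 / 2 ≤ p.c → p.ry ≤ θ) → PU' Δ p →
      (p.c ≤ 61 / 100 → p.rx ≤ θ / 4) ∧ (39 / 100 ≤ p.c → p.ry ≤ θ / 4) ∧
        ((p.d ≤ Δ / 4 ∧ p.s ≤ 51 / 100) ∨ 3 * Δ / 4 ≤ p.d ∨
          (49 / 100 ≤ p.s ∧ p.s ≤ 51 / 100 ∧ p.c ≤ 1 / 2))) : False := by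
  rcases le_or_gt p.z (1 / 100) with hz0 | hz0
  · have hc0 : p.c ≤ 1 / 100 := by
      by_contra h
      rcases pc_one hε hεΔ hc (not_le.1 h) with h | h | h <;> linarith [h.1]
    have hs0 : p.s ≤ 1 / 100 := by
      by_contra h
      rcases ps_one hε hs (not_le.1 h) with h | h | h
      exacts [by linarith [h.1], by linarith [h.1], by linarith [h.2]]
    obtain ⟨hd, hr⟩ := hA hz0 hc0 hs0
    have : 99 / 100 ≤ p.z := hz.one fun q hq => by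
      have h1 := abs_le.1 hq.s
      have h2 := abs_le.1 hq.c
      have h4 := abs_le.1 hq.d
      have h5 := abs_le.1 hq.rx
      exact ⟨fun _ => by linarith, fun h => by linarith,
        Or.inr ⟨by linarith, by linarith, Or.inl (by linarith)⟩⟩
    linarith
  obtain ⟨q, hq, hqx, hqy, hqu⟩ := hz.ex hz0
  have h1 := abs_le.1 hq.s
  have h2 := abs_le.1 hq.c
  have h3 := abs_le.1 hq.z
  have h4 := abs_le.1 hq.d
  have h5 := abs_le.1 hq.rx
  have h6 := abs_le.1 hq.ry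
  have hu : PU' Δ p := by
    rcases hqu with ⟨a, b, c⟩ | ⟨a, b, c⟩
    · refine Or.inl ⟨by linarith, by linarith, ?_⟩
      rcases c with c | c | c | c
      exacts [Or.inl (by linarith), Or.inr (Or.inl (by linarith)),
        Or.inr (Or.inr (Or.inl (by linarith))), Or.inr (Or.inr (Or.inr (by linarith)))]
    · refine Or.inr ⟨by linarith, by linarith, ?_⟩
      rcases c with c | c
      exacts [Or.inl (by linarith), Or.inr (by linarith)]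
  obtain ⟨hx, hy, hd⟩ := hB (fun h => by linarith [hqx (by linarith)])
    (fun h => by linarith [hqy (by linarith)]) hu
  rcases le_or_gt (99 / 100) p.z with hz1 | hz1
  · obtain ⟨a, b, c, d⟩ := top_centre hε hεΔ s0 s1 c0 c1 hs hc (by linarith)
    rcases hu with ⟨-, -, h | h | h | h⟩ | ⟨-, h, -⟩ <;> linarith
  obtain ⟨r, hr, hru⟩ := hz.ex_not hz1
  have k1 := abs_le.1 hr.s
  have k2 := abs_le.1 hr.c
  have k3 := abs_le.1 hr.z
  have k4 := abs_le.1 hr.d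
  have k5 := abs_le.1 hr.rx
  have k6 := abs_le.1 hr.ry
  have hru : ¬ PU Δ r := fun h => hru
    ⟨fun h => by linarith [hx (by linarith)], fun h => by linarith [hy (by linarith)], h⟩
  unfold PU at hru
  push Not at hru
  obtain ⟨r0, r1⟩ := hru
  by_cases hd1 : 3 * Δ / 4 ≤ p.d
  · have hu : 69 / 100 ≤ p.z ∧
        (p.s ≤ 26 / 100 ∨ 74 / 100 ≤ p.s ∨ p.c ≤ 26 / 100 ∨ 74 / 100 ≤ p.c) := by
      rcases hu with ⟨-, h⟩ | ⟨h, -⟩
      exacts [h, by linarith]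
    rcases lt_or_ge (7 / 10) r.z with h7 | h7
    · obtain ⟨a, b, c, d⟩ := r0 (by linarith) h7
      obtain ⟨a, b, c, d⟩ := wall hε hΔ hεΔ hs hc hu.1 hd1 (by linarith) (by linarith)
        (by linarith) (by linarith)
      rcases hu.2 with h | h | h | h <;> linarith
    · obtain ⟨a, b, c, d⟩ := bot_centre hε hΔ hεΔ s0 s1 c0 c1 hs hc hu.1 (by linarith) hd1
      rcases hu.2 with h | h | h | h <;> linarith
  have hd : p.s ≤ 51 / 100 ∧ (p.d ≤ Δ / 4 ∨ (49 / 100 ≤ p.s ∧ p.c ≤ 1 / 2)) := by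
    rcases hd with h | h | h
    exacts [⟨h.2, Or.inl h.1⟩, absurd h hd1, ⟨h.2.1, Or.inr ⟨h.1, h.2.2⟩⟩]
  obtain ⟨hs5, hd⟩ := hd
  have hc26 : p.c ≤ 26 / 100 := by
    rcases hu with ⟨a, -, h | h | h | h⟩ | ⟨-, h, -⟩
    · rcases hd with hd | hd
      exacts [by linarith, by linarith [hd.1]]
    · linarith
    · exact h
    · rcases hd with hd | hd
      exacts [by linarith, by linarith [hd.2]]
    · exact h
  have key : 24 / 100 ≤ p.c ∨ (24 / 100 ≤ p.s ∧ p.z ≤ 71 / 100) := by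
    rcases le_or_gt (Δ / 2) r.d with h | h
    · have hd : 49 / 100 ≤ p.s := by
        rcases hd with hd | hd
        exacts [by linarith, hd.1]
      rcases lt_or_ge (7 / 10) r.z with h7 | h7
      · exact Or.inl (by linarith [(r0 h h7).2.2.1])
      · exact Or.inr ⟨by linarith, by linarith⟩
    · rcases lt_or_ge r.c (1 / 4) with h7 | h7
      · exact Or.inr ⟨by linarith [(r1 h h7).1], by linarith [(r1 h h7).2]⟩
      · exact Or.inl (by linarith)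
  rcases key with key | key
  · rcases pc_one hε hεΔ hc (by linarith) with h | h | h
    · linarith [h.2]
    · linarith [h.2.2]
    · rcases hd with hd | hd
      exacts [by linarith [h.2.2.1], by linarith [h.2.2.2, hd.1]]
  · rcases ps_one hε hs (by linarith [key.1]) with h | h | h
    · linarith [h.1, key.2]
    · linarith [h.1, key.2]
    · linarith [h.2]

end

end Vale.Agent.P330.B
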