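import Vale.Agent.P330.Core
import Vale.Agent.P330.B.Fin

/-!
P330, Brouwer block: fractions and the analysis of the data registers.
-/

namespace Vale.Agent.P330.B

section Frac

variable {C : Type} [Fintype C]

theorem fr_nonneg (p : C → Prop) : 0 ≤ frac p := by
  unfold frac; positivity

theorem fr_eq (p : C → Prop) [DecidablePred p] :
    frac p = mean fun c => if p c then (1 : ℝ) else 0 := by
  unfold frac mean
  rw [Finset.sum_boole]
  congr 3
  ext c
  simp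

theorem mean_le {f g : C → ℝ} (h : ∀ c, f c ≤ g c) : mean f ≤ mean g :=
  div_le_div_of_nonneg_right (Finset.sum_le_sum fun c _ => h c) (by positivity)

theorem mean_add' (f g : C → ℝ) : mean (fun c => f c + g c) = mean f + mean g := by
  unfold mean
  rw [Finset.sum_add_distrib, add_div]

theorem mean_cst [Nonempty C] (a : ℝ) : mean (fun _ : C => a) = a := by
  unfold mean
  have : (Fintype.card C : ℝ) ≠ 0 := by exact_mod_cast Fintype.card_ne_zero
  simp only [Finset.sum_const, Finset.card_univ, nsmul_eq_mul]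
  field_simp

theorem fr_or {p q r : C → Prop} (h : ∀ c, p c → q c ∨ r c) : frac p ≤ frac q + frac r := by
  classical
  rw [fr_eq, fr_eq, fr_eq, ← mean_add']
  refine mean_le fun c => ?_
  by_cases hp : p c
  · rcases h c hp with h | h <;> simp only [hp, h, if_true] <;> split_ifs <;> norm_num
  · simp only [hp, if_false]
    split_ifs <;> norm_num

theorem fr_mono {p q : C → Prop} (h : ∀ c, p c → q c) : frac p ≤ frac q := by
  classical
  rw [fr_eq, fr_eq]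
  refine mean_le fun c => ?_
  by_cases hp : p c
  · simp [hp, h c hp]
  · simp only [hp, if_false]
    split_ifs <;> norm_num

theorem fr_cond {p : C → Prop} {A : Prop} {t : ℝ} (ht : 0 ≤ t) (h : A → frac p ≤ t) :
    frac (fun c => A ∧ p c) ≤ t := by
  by_cases hA : A
  · exact (fr_mono fun c hc => hc.2).trans (h hA)
  · refine le_trans (le_of_eq ?_) ht
    simp [frac, hA]

theorem fr_ex {J : Type} [Fintype J] {p : J → C → Prop} {t : ℝ} (h : ∀ j, frac (p j) ≤ t) :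
    frac (fun c => ∃ j, p j c) ≤ Fintype.card J * t := by
  classical
  have key : ∀ s : Finset J, frac (fun c => ∃ j ∈ s, p j c) ≤ s.card * t := by
    intro s
    induction s using Finset.induction_on with
    | empty => simp [frac]
    | insert a s ha ih =>
      have h1 : frac (fun c => ∃ j ∈ insert a s, p j c) ≤
          frac (p a) + frac (fun c => ∃ j ∈ s, p j c) :=
        fr_or fun c ⟨j, hj, hc⟩ => by
          rcases Finset.mem_insert.1 hj with rfl | hj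
          exacts [Or.inl hc, Or.inr ⟨j, hj, hc⟩]
      rw [Finset.card_insert_of_notMem ha]
      push_cast
      linarith [h a]
  simpa using key Finset.univ

theorem mean_le_fr {f : C → ℝ} {p : C → Prop} (h1 : ∀ c, f c ≤ 1) (h : ∀ c, ¬ p c → f c = 0) :
    mean f ≤ frac p := by
  classical
  rw [fr_eq]
  refine mean_le fun c => ?_
  split_ifs with hp
  exacts [h1 c, (h c hp).le]

theorem fr_le_mean {f : C → ℝ} {p : C → Prop} (h0 : ∀ c, 0 ≤ f c) (h : ∀ c, p c → f c = 1) :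
    frac p ≤ mean f := by
  classical
  rw [fr_eq]
  refine mean_le fun c => ?_
  split_ifs with hp
  exacts [(h c hp).ge, h0 c]

theorem one_le_fr [Nonempty C] (p : C → Prop) : 1 ≤ frac p + frac fun c => ¬ p c := by
  have h : frac (fun _ : C => True) = 1 := by
    classical
    rw [fr_eq]
    simpa using mean_cst (C := C) 1
  rw [← h]
  exact fr_or fun c _ => em (p c)

theorem mean_near {K : ℕ} {f g : Fin K → ℝ} {η : ℝ} (hη : 0 ≤ η) (h : ∀ i, |f i - g i| ≤ η) :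
    |mean f - mean g| ≤ η := by
  rcases Nat.eq_zero_or_pos K with rfl | hK
  · simpa [mean] using hη
  have : Nonempty (Fin K) := ⟨⟨0, hK⟩⟩
  have h1 : mean f ≤ mean g + η := by
    rw [← mean_cst (C := Fin K) η, ← mean_add']
    exact mean_le fun i => by linarith [abs_le.1 (h i)]
  have h2 : mean g ≤ mean f + η := by
    rw [← mean_cst (C := Fin K) η, ← mean_add']
    exact mean_le fun i => by linarith [abs_le.1 (h i)]
  exact abs_le.2 ⟨by linarith, by linarith⟩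

theorem tvd_pd (w : C → ℝ) (u : C → Bool) : tvd w u ≤ pd w u :=
  fr_mono fun c hc h => by rw [h] at hc; norm_num at hc

end Frac

/-- What the gates and the external registers give for the data: `X`, `Y` are the two data
registers, `cX`, `sX`, `cY`, `pY` the corrections, the successor and the predecessor. -/
structure Dat {C : Type} [Fintype C] (Valid : (C → Bool) → Prop)
    (E : (C → Bool) → (C → Bool) → Prop) (st : C → Bool) (Δ θ h0 h2 τ : ℝ)
    (X Y cX sX cY pY : C → ℝ) (p : Pt) : Prop where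
  τ0 : τ ≤ h0
  τΔ : τ ≤ Δ / 8
  pos : 0 < τ
  h0Δ : h0 ≤ Δ / 8
  dist : ∀ u v, Valid u → Valid v → u ≠ v → Δ ≤ frac fun c => u c ≠ v c
  val : ∀ u v, E u v → Valid u ∧ Valid v
  stv : Valid st
  nop : ∀ u, ¬ E u st
  pdX : ∀ u, (p.z < 61 / 100 → u = st) →
    (59 / 100 ≤ p.z → p.c < 46 / 100 → tvd cX u ≤ h2) →
    (59 / 100 ≤ p.z → 44 / 100 ≤ p.c → p.s < 51 / 100 → tvd cY u ≤ h2) →
    (59 / 100 ≤ p.z → 44 / 100 ≤ p.c → 49 / 100 ≤ p.s → tvd pY u ≤ h2) → pd X u ≤ τ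
  pdY : ∀ v, (54 / 100 < p.c → tvd cY v ≤ h2) →
    (p.c ≤ 56 / 100 → p.s < 51 / 100 → tvd cX v ≤ h2) →
    (p.c ≤ 56 / 100 → 49 / 100 ≤ p.s → tvd sX v ≤ h2) → pd Y v ≤ τ
  d0 : p.d ≤ tvd Y st + τ
  d1 : ∀ v, frac (fun c => v c ≠ st c) ≤ p.d + tvd Y v + τ
  sndX : p.rx ≤ θ → ∃ u, Valid u ∧ tvd X u ≤ h0
  sndY : p.ry ≤ θ → ∃ u, Valid u ∧ tvd Y u ≤ h0
  corX : ∀ u, Valid u → tvd X u ≤ h0 → tvd cX u ≤ h2
  corY : ∀ u, Valid u → tvd Y u ≤ h0 → tvd cY u ≤ h2
  cmpX : ∀ u, Valid u → pd X u ≤ τ → p.rx ≤ θ / 4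
  cmpY : ∀ u, Valid u → pd Y u ≤ τ → p.ry ≤ θ / 4
  suc : ∀ u v, E u v → tvd X u ≤ h0 → tvd sX v ≤ h2
  pre : ∀ u v, E u v → tvd Y v ≤ h0 → tvd pY u ≤ h2
  n1 : ∀ u, Valid u → tvd X u ≤ h0 → ∃ v, E u v
  n2 : ∀ v, Valid v → v ≠ st → tvd Y v ≤ h0 → ∃ u, E u v

namespace Dat

variable {C : Type} [Fintype C] {Valid : (C → Bool) → Prop}
  {E : (C → Bool) → (C → Bool) → Prop} {st : C → Bool} {Δ θ h0 h2 τ : ℝ}
  {X Y cX sX cY pY : C → ℝ} {p : Pt}

theorem d_lo (D : Dat Valid E st Δ θ h0 h2 τ X Y cX sX cY pY p) (h : tvd Y st ≤ h0) :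
    p.d ≤ Δ / 4 := by
  linarith [D.d0, D.τΔ, D.h0Δ]

theorem d_hi (D : Dat Valid E st Δ θ h0 h2 τ X Y cX sX cY pY p) {v : C → Bool} (hv : Valid v)
    (hne : v ≠ st) (h : tvd Y v ≤ h0) : 3 * Δ / 4 ≤ p.d := by
  linarith [D.d1 v, D.τΔ, D.h0Δ, D.dist v st hv D.stv hne]

theorem near (D : Dat Valid E st Δ θ h0 h2 τ X Y cX sX cY pY p) {w : C → ℝ} {u : C → Bool}
    (h : pd w u ≤ τ) : tvd w u ≤ h0 :=
  ((tvd_pd w u).trans h).trans D.τ0

/-- At height zero the data are the start word. -/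
theorem low (D : Dat Valid E st Δ θ h0 h2 τ X Y cX sX cY pY p) (hz : p.z ≤ 1 / 100)
    (hc : p.c ≤ 1 / 100) (hs : p.s ≤ 1 / 100) : p.d ≤ Δ / 4 ∧ p.rx ≤ θ / 4 := by
  have hX : pd X st ≤ τ := D.pdX st (fun _ => rfl) (fun h => by linarith) (fun h => by linarith)
    fun h => by linarith
  have hk := D.corX st D.stv (D.near hX)
  have hY : pd Y st ≤ τ := D.pdY st (fun h => by linarith) (fun _ _ => hk) fun _ h => by linarith
  exact ⟨D.d_lo (D.near hY), D.cmpX st D.stv hX⟩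

/-- The anchor is `X`. -/
theorem ancX (D : Dat Valid E st Δ θ h0 h2 τ X Y cX sX cY pY p) (hc : p.c ≤ 1 / 2)
    (hx : p.rx ≤ θ) (hu : PU' Δ p) :
    p.rx ≤ θ / 4 ∧ (39 / 100 ≤ p.c → p.ry ≤ θ / 4) ∧
      ((p.d ≤ Δ / 4 ∧ p.s ≤ 51 / 100) ∨ 3 * Δ / 4 ≤ p.d ∨
        (49 / 100 ≤ p.s ∧ p.s ≤ 51 / 100 ∧ p.c ≤ 1 / 2)) := by
  have hΔ : 0 < Δ := by linarith [D.pos, D.τΔ]
  obtain ⟨u, hv, hX⟩ := D.sndX hx
  obtain ⟨v, e⟩ := D.n1 u hv hX
  have hk := D.corX u hv hX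
  have hn := D.suc u v e hX
  have y0 : p.s < 49 / 100 → pd Y u ≤ τ := fun h =>
    D.pdY u (fun h => by linarith) (fun _ _ => hk) fun _ h => by linarith
  have y1 : 51 / 100 ≤ p.s → pd Y v ≤ τ := fun h =>
    D.pdY v (fun h => by linarith) (fun _ h => by linarith) fun _ _ => hn
  have hvs : v ≠ st := fun h => D.nop u (h ▸ e)
  have clear : 39 / 100 ≤ p.c → p.s < 49 / 100 ∨ 51 / 100 ≤ p.s := fun h => by
    rcases hu with ⟨-, -, h | h | h | h⟩ | ⟨-, h, -⟩
    exacts [Or.inl (by linarith), Or.inr (by linarith), by linarith, by linarith, by linarith]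
  refine ⟨D.cmpX u hv (D.pdX u (fun hz => ?_) (fun _ _ => hk) (fun _ h1 h2 => ?_)
    fun _ h1 h2 => ?_), fun h => ?_, ?_⟩
  · by_contra hne
    rcases hu with ⟨-, h, -⟩ | ⟨h1, -, h | h⟩
    · linarith
    · linarith [D.d_hi hv hne (D.near (y0 (by linarith)))]
    · linarith
  · rcases clear (by linarith) with h | h
    exacts [D.corY u hv (D.near (y0 h)), by linarith]
  · rcases clear (by linarith) with h | h
    exacts [by linarith, D.pre u v e (D.near (y1 h))]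
  · rcases clear h with h | h
    exacts [D.cmpY u hv (y0 h), D.cmpY v (D.val u v e).2 (y1 h)]
  · rcases lt_or_ge p.s (49 / 100) with h | h
    · by_cases hne : u = st
      · exact Or.inl ⟨D.d_lo (hne ▸ D.near (y0 h)), by linarith⟩
      · exact Or.inr (Or.inl (D.d_hi hv hne (D.near (y0 h))))
    · rcases le_total (51 / 100) p.s with h' | h'
      · exact Or.inr (Or.inl (D.d_hi (D.val u v e).2 hvs (D.near (y1 h'))))
      · exact Or.inr (Or.inr ⟨h, h', hc⟩)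

/-- The anchor is `Y`. -/
theorem ancY (D : Dat Valid E st Δ θ h0 h2 τ X Y cX sX cY pY p) (hc : 1 / 2 ≤ p.c)
    (hy : p.ry ≤ θ) (hu : PU' Δ p) :
    (p.c ≤ 61 / 100 → p.rx ≤ θ / 4) ∧ p.ry ≤ θ / 4 ∧ 3 * Δ / 4 ≤ p.d := by
  have hΔ : 0 < Δ := by linarith [D.pos, D.τΔ]
  obtain ⟨v, hv, hY⟩ := D.sndY hy
  obtain ⟨hd, hz, hq⟩ : 3 * Δ / 8 ≤ p.d ∧ 69 / 100 ≤ p.z ∧
      (p.s ≤ 26 / 100 ∨ 74 / 100 ≤ p.s ∨ p.c ≤ 26 / 100 ∨ 74 / 100 ≤ p.c) := by
    rcases hu with h | ⟨-, h, -⟩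
    exacts [h, by linarith]
  have hne : v ≠ st := fun h => by linarith [D.d_lo (h ▸ hY)]
  obtain ⟨u, e⟩ := D.n2 v hv hne hY
  have hk := D.corY v hv hY
  have hn := D.pre u v e hY
  have x0 : p.s < 49 / 100 → pd X v ≤ τ := fun h =>
    D.pdX v (fun h => by linarith) (fun _ h => by linarith) (fun _ _ _ => hk)
      fun _ _ h => by linarith
  have x1 : 51 / 100 ≤ p.s → pd X u ≤ τ := fun h =>
    D.pdX u (fun h => by linarith) (fun _ h => by linarith) (fun _ _ h => by linarith)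
      fun _ _ _ => hn
  have clear : p.c ≤ 61 / 100 → p.s < 49 / 100 ∨ 51 / 100 ≤ p.s := fun h => by
    rcases hq with h | h | h | h
    exacts [Or.inl (by linarith), Or.inr (by linarith), by linarith, by linarith]
  refine ⟨fun h => ?_, D.cmpY v hv (D.pdY v (fun _ => hk) (fun h1 h2 => ?_) fun h1 h2 => ?_),
    D.d_hi hv hne hY⟩
  · rcases clear h with h | h
    exacts [D.cmpX v hv (x0 h), D.cmpX u (D.val u v e).1 (x1 h)]
  · rcases clear (by linarith) with h | h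
    exacts [D.corX v hv (D.near (x0 h)), by linarith]
  · rcases clear (by linarith) with h | h
    exacts [by linarith, D.suc u v e (D.near (x1 h))]

/-- The facts on the data which the finite dimensional lemma needs. -/
theorem facts (D : Dat Valid E st Δ θ h0 h2 τ X Y cX sX cY pY p)
    (hx : p.c ≤ 1 / 2 → p.rx ≤ θ) (hy : 1 / 2 ≤ p.c → p.ry ≤ θ) (hu : PU' Δ p) :
    (p.c ≤ 61 / 100 → p.rx ≤ θ / 4) ∧ (39 / 100 ≤ p.c → p.ry ≤ θ / 4) ∧
      ((p.d ≤ Δ / 4 ∧ p.s ≤ 51 / 100) ∨ 3 * Δ / 4 ≤ p.d ∨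
        (49 / 100 ≤ p.s ∧ p.s ≤ 51 / 100 ∧ p.c ≤ 1 / 2)) := by
  rcases le_total p.c (1 / 2) with h | h
  · obtain ⟨a, b, c⟩ := D.ancX h (hx h) hu
    exact ⟨fun _ => a, b, c⟩
  · obtain ⟨a, b, c⟩ := D.ancY h (hy h) hu
    exact ⟨a, fun _ => b, Or.inr (Or.inl c)⟩

end Dat

end Vale.Agent.P330.B
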