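import Vale.Agent.P330.Stmts
import Vale.Agent.P330.B.Data

/-!
P330, Brouwer block: the template and the proof of `BStmt`.
-/

namespace Vale.Agent.P330.B

/-- the registers and the external registers -/
abbrev Ix : Type := Fin (4 + 2) ⊕ Fin 6

/-- the scalars among the means -/
def pt (m : Ix → ℝ) : Pt :=
  ⟨m (Sum.inl 2), m (Sum.inl 3), m (Sum.inl 4), m (Sum.inl 5), m (Sum.inr 2), m (Sum.inr 5)⟩

/-- rounding -/
noncomputable def rb (t : ℝ) : Bool := decide (1 / 2 < t)

/-- the gate of `X` -/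
noncomputable def fX (b : Bool) (p : Pt) (y : Ix → ℝ) : Bool :=
  if p.z < 6 / 10 then b else if p.c < 45 / 100 then rb (y (Sum.inr 0))
    else if p.s < 1 / 2 then rb (y (Sum.inr 3)) else rb (y (Sum.inr 4))

/-- the gate of `Y` -/
noncomputable def fY (p : Pt) (y : Ix → ℝ) : Bool :=
  if 55 / 100 < p.c then rb (y (Sum.inr 3))
    else if p.s < 1 / 2 then rb (y (Sum.inr 0)) else rb (y (Sum.inr 1))

open Classical in
/-- all gates -/
noncomputable def fns (Δ θ : ℝ) (r : Fin (4 + 2)) (b : Bool) (m y : Ix → ℝ) : Bool :=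
  ![fX b (pt m) y, fY (pt m) y, decide (PS (pt m)), decide (PC Δ (pt m)),
    decide (PZ Δ θ (pt m)), decide (rb (y (Sum.inl 1)) ≠ b)] r

/-- the template -/
noncomputable def tpl (Δ θ : ℝ) : BT := ⟨4, 0, fun r _ b m y => fns Δ θ r b m y⟩

theorem rb_eq {y t η : ℝ} {b : Bool} (hη : η ≤ 1 / 20) (h1 : |y - t| ≤ η)
    (h2 : ¬ 2 / 5 < |t - bv b|) : rb y = b := by
  have h1 := abs_le.1 h1
  have h2 := abs_le.1 (not_lt.1 h2)
  cases b <;> simp only [bv, rb] at h2 ⊢ <;> norm_num at h2 ⊢ <;> linarith [h2.1, h2.2]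

theorem sat_mk {V D : Type} [En D] [DecidableEq D] {src : D → V} {F : (D → ℝ) → Bool} {η : ℝ}
    {x : V → ℝ} {o : ℝ} (h : (Gate.mk' src F).Sat η x o) (b : Bool)
    (hb : ∀ y : D → ℝ, (∀ d, |y d - x (src d)| ≤ η) → F y = b) : o = bv b := by
  refine h b fun l hl => hb _ fun d => ?_
  have hi : (elems D).idxOf d < (elems D).length := List.idxOf_lt_length_of_mem (En.complete d)
  obtain ⟨hlen, hl⟩ := List.forall₂_iff_get.1 hl
  simp only [Gate.mk', List.length_map] at hlen
  have := hl ((elems D).idxOf d) (by simpa [Gate.mk'] using hi) (hlen ▸ hi)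
  simp only [Gate.mk', List.get_eq_getElem, List.getElem_map, List.getElem_idxOf] at this
  rwa [List.getD_eq_getElem _ _ (hlen ▸ hi)]

section

variable {C : Type} [Fintype C]

/-- At a good cell every register has the value which all noisy readings give. -/
def GoodAt (Δ θ η : ℝ) (st : C → Bool) (x : C × Ix → ℝ) (c : C) : Prop :=
  ∀ r b, (∀ m y : Ix → ℝ, (∀ j, |m j - mean fun c => x (c, j)| ≤ 2 * η) →
    (∀ j, |y j - x (c, j)| ≤ η) → fns Δ θ r (st c) m y = b) → x (c, Sum.inl r) = bv b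

theorem good_frac {Δ θ η : ℝ} (hη : 0 ≤ η) {K : ℕ} {nb : C → Fin K → C} {th : C → Fin 1}
    {st : C → Bool} {x : C × Ix → ℝ} (hS : Sampler η nb) (hx : Unit01 x)
    (hO : ((tpl Δ θ).mod nb th st).Ok η x) :
    frac (fun c => ¬ GoodAt Δ θ η st x c) ≤ 18 * η := by
  have h1 := fr_ex hO
  have h2 := fr_ex fun j : Ix => hS (fun c => x (c, j)) fun c => hx _
  have e1 : (Fintype.card (Fin ((tpl Δ θ).ρ + 2)) : ℝ) = 6 := by
    rw [Fintype.card_fin]; norm_num [tpl]
  have e2 : (Fintype.card Ix : ℝ) = 12 := by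
    rw [Fintype.card_sum, Fintype.card_fin]; norm_num
  rw [e1] at h1
  rw [e2] at h2
  refine ((fr_or fun c hc => ?_).trans (add_le_add h1 h2)).trans (by linarith)
  by_contra hn
  push Not at hn
  refine hc fun r b hb => sat_mk (hn.1 r) b fun y hy => hb _ _ (fun j => ?_) fun j => hy (j, none)
  have h3 := abs_le.1 (hn.2 j)
  have h4 := abs_le.1 (mean_near (f := fun i => y (j, some i)) (g := fun i => x (nb c i, j)) hη
    fun i => hy (j, some i))
  exact abs_le.2 ⟨by linarith [h3.1, h4.1], by linarith [h3.2, h4.2]⟩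

variable {Δ θ η : ℝ} {st : C → Bool} {x : C × Ix → ℝ}

theorem near_pt {m m' : Ix → ℝ} {ε : ℝ} (h : ∀ j, |m' j - m j| ≤ ε) : Near ε (pt m) (pt m') :=
  ⟨h _, h _, h _, h _, h _, h _⟩

open Classical in
theorem cmp_of [Nonempty C] (hx : Unit01 x) (hη : 18 * η ≤ 1 / 100)
    (hG : frac (fun c => ¬ GoodAt Δ θ η st x c) ≤ 18 * η) (r : Fin (4 + 2)) (P : Pt → Prop)
    (hr : ∀ b m y, fns Δ θ r b m y = decide (P (pt m))) :
    Cmp (2 * η) P (pt fun j => mean fun c => x (c, j)) (mean fun c => x (c, Sum.inl r)) where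
  one h := by
    have h1 : frac (GoodAt Δ θ η st x) ≤ mean fun c => x (c, Sum.inl r) :=
      fr_le_mean (fun c => (hx _).1) fun c hc => by
        simpa [bv] using hc r true fun m y hm _ => by
          rw [hr]; exact decide_eq_true (h _ (near_pt hm))
    linarith [one_le_fr (GoodAt Δ θ η st x)]
  zero h := by
    have h1 : (mean fun c => x (c, Sum.inl r)) ≤ frac fun c => ¬ GoodAt Δ θ η st x c :=
      mean_le_fr (fun c => (hx _).2) fun c hc => by
        simpa [bv] using not_not.1 hc r false fun m y hm _ => by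
          rw [hr]; exact decide_eq_false (h _ (near_pt hm))
    linarith

theorem pd_X (hη : η ≤ 1 / 200) {h2 : ℝ} (h20 : 0 ≤ h2)
    (hG : frac (fun c => ¬ GoodAt Δ θ η st x c) ≤ 18 * η) {p : Pt}
    (hp : p = pt fun j => mean fun c => x (c, j)) (u : C → Bool) (a : p.z < 61 / 100 → u = st)
    (b : 59 / 100 ≤ p.z → p.c < 46 / 100 → tvd (ext x 0) u ≤ h2)
    (c : 59 / 100 ≤ p.z → 44 / 100 ≤ p.c → p.s < 51 / 100 → tvd (ext x 3) u ≤ h2)
    (d : 59 / 100 ≤ p.z → 44 / 100 ≤ p.c → 49 / 100 ≤ p.s → tvd (ext x 4) u ≤ h2) :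
    pd (reg x 0) u ≤ 18 * η + 3 * h2 := by
  have b' := fr_cond (A := 59 / 100 ≤ p.z ∧ p.c < 46 / 100) h20 fun h => b h.1 h.2
  have c' := fr_cond (A := 59 / 100 ≤ p.z ∧ 44 / 100 ≤ p.c ∧ p.s < 51 / 100) h20
    fun h => c h.1 h.2.1 h.2.2
  have d' := fr_cond (A := 59 / 100 ≤ p.z ∧ 44 / 100 ≤ p.c ∧ 49 / 100 ≤ p.s) h20
    fun h => d h.1 h.2.1 h.2.2
  refine (fr_or fun k hk => ?_).trans (add_le_add hG ((fr_or fun _ h => h).trans
    (add_le_add b' ((fr_or fun _ h => h).trans (add_le_add c' d'))))) |>.trans (by linarith)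
  by_contra hn
  simp only [not_or, not_not, not_and] at hn
  obtain ⟨g, n1, n2, n3⟩ := hn
  refine hk (g 0 (u k) fun m y hm hy => ?_)
  have hq : Near (2 * η) p (pt m) := hp ▸ near_pt hm
  have h1 := abs_le.1 hq.s
  have h2 := abs_le.1 hq.c
  have h3 := abs_le.1 hq.z
  change fX (st k) (pt m) y = u k
  unfold fX
  split_ifs with e1 e2 e3
  · rw [a (by linarith)]
  · exact rb_eq (by linarith) (hy _) (n1 ⟨by linarith, by linarith⟩)
  · exact rb_eq (by linarith) (hy _) (n2 ⟨by linarith, by linarith, by linarith⟩)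
  · exact rb_eq (by linarith) (hy _) (n3 ⟨by linarith, by linarith, by linarith⟩)

theorem pd_Y (hη : η ≤ 1 / 200) {h2 : ℝ} (h20 : 0 ≤ h2)
    (hG : frac (fun c => ¬ GoodAt Δ θ η st x c) ≤ 18 * η) {p : Pt}
    (hp : p = pt fun j => mean fun c => x (c, j)) (u : C → Bool)
    (b : 54 / 100 < p.c → tvd (ext x 3) u ≤ h2)
    (c : p.c ≤ 56 / 100 → p.s < 51 / 100 → tvd (ext x 0) u ≤ h2)
    (d : p.c ≤ 56 / 100 → 49 / 100 ≤ p.s → tvd (ext x 1) u ≤ h2) :
    pd (reg x 1) u ≤ 18 * η + 3 * h2 := by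
  have b' := fr_cond h20 b
  have c' := fr_cond (A := p.c ≤ 56 / 100 ∧ p.s < 51 / 100) h20 fun h => c h.1 h.2
  have d' := fr_cond (A := p.c ≤ 56 / 100 ∧ 49 / 100 ≤ p.s) h20 fun h => d h.1 h.2
  refine (fr_or fun k hk => ?_).trans (add_le_add hG ((fr_or fun _ h => h).trans
    (add_le_add b' ((fr_or fun _ h => h).trans (add_le_add c' d'))))) |>.trans (by linarith)
  by_contra hn
  simp only [not_or, not_not, not_and] at hn
  obtain ⟨g, n1, n2, n3⟩ := hn
  refine hk (g 1 (u k) fun m y hm hy => ?_)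
  have hq : Near (2 * η) p (pt m) := hp ▸ near_pt hm
  have h1 := abs_le.1 hq.s
  have h2 := abs_le.1 hq.c
  change fY (pt m) y = u k
  unfold fY
  split_ifs with e1 e2
  · exact rb_eq (by linarith) (hy _) (n1 (by linarith))
  · exact rb_eq (by linarith) (hy _) (n2 ⟨by linarith, by linarith⟩)
  · exact rb_eq (by linarith) (hy _) (n3 ⟨by linarith, by linarith⟩)

theorem d_val (hη : η ≤ 1 / 200) {k : C} (g : GoodAt Δ θ η st x k) {b : Bool}
    (h : ¬ 2 / 5 < |x (k, Sum.inl 1) - bv b|) : x (k, Sum.inl 5) = bv (decide (b ≠ st k)) :=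
  g 5 _ fun m y _ hy => by
    have := rb_eq (by linarith) (hy (Sum.inl 1)) h
    simp only [fns]
    rw [this]
    simp

theorem d_up (hη : η ≤ 1 / 200) (hx : Unit01 x)
    (hG : frac (fun c => ¬ GoodAt Δ θ η st x c) ≤ 18 * η) :
    (mean fun c => x (c, Sum.inl 5)) ≤ tvd (reg x 1) st + 18 * η := by
  refine (mean_le_fr (fun c => (hx _).2) fun k hk => ?_).trans
    ((fr_or fun _ h => h).trans (add_le_add le_rfl hG))
  simp only [not_or, not_not] at hk
  simpa [bv] using d_val hη hk.2 hk.1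

theorem d_down (hη : η ≤ 1 / 200) (hx : Unit01 x)
    (hG : frac (fun c => ¬ GoodAt Δ θ η st x c) ≤ 18 * η) (v : C → Bool) :
    frac (fun c => v c ≠ st c) ≤
      (mean fun c => x (c, Sum.inl 5)) + tvd (reg x 1) v + 18 * η := by
  have h1 : frac (fun c => x (c, Sum.inl 5) = 1) ≤ mean fun c => x (c, Sum.inl 5) :=
    fr_le_mean (fun c => (hx _).1) fun _ h => h
  refine (fr_or fun k hk => ?_).trans
    (add_le_add ((fr_or fun _ h => h).trans (add_le_add h1 le_rfl)) hG)
  by_contra hn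
  simp only [not_or, not_not] at hn
  exact hn.1.1 (by simpa [bv, hk] using d_val hη hn.2 hn.1.2)

end

end Vale.Agent.P330.B

namespace Vale.Agent.P330

open B

/-- T4: the Brouwer block. -/
theorem bStmt : BStmt := by
  intro Δ hΔ
  refine ⟨Δ / 8, by positivity, fun h0 θ Cc hh0 hh1 hθ hC => ?_⟩
  obtain ⟨τ, hτ, t1, t2, t3⟩ : ∃ τ : ℝ, 0 < τ ∧ τ ≤ h0 ∧ τ ≤ 1 / 100 ∧ (Cc + 1) * τ ≤ θ / 8 := by
    refine ⟨min (min h0 (1 / 100)) (θ / 8 / (Cc + 1)), by positivity,
      (min_le_left _ _).trans (min_le_left _ _), (min_le_left _ _).trans (min_le_right _ _), ?_⟩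
    rw [mul_comm, ← le_div_iff₀ (by positivity)]
    exact min_le_right _ _
  have t4 : 0 ≤ Cc * τ := by positivity
  refine ⟨τ / 10, τ / 100, tpl Δ θ, by positivity, by positivity, ?_⟩
  intro C _ _ K nb th st Valid E x hS _ hD hE _ _ hst _ hnp hx hO hX hY hsuc hpre
  by_contra hcon
  simp only [not_or, not_exists, not_and, not_forall, not_not] at hcon
  have hG := good_frac (Δ := Δ) (θ := θ) (by positivity) hS hx hO
  have hη : τ / 100 ≤ 1 / 200 := by linarith
  have hm : ∀ j : Ix, 0 ≤ (mean fun c => x (c, j)) ∧ (mean fun c => x (c, j)) ≤ 1 := fun j =>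
    ⟨(mean_cst (C := C) 0).symm.le.trans (mean_le fun c => (hx _).1),
      (mean_le fun c => (hx _).2).trans (mean_cst (C := C) 1).le⟩
  have D : Dat Valid E st Δ θ h0 (τ / 10) τ (reg x 0) (reg x 1) (ext x 0) (ext x 1) (ext x 3)
      (ext x 4) (pt fun j => mean fun c => x (c, j)) :=
    { τ0 := t1
      τΔ := t1.trans hh1
      pos := hτ
      h0Δ := hh1
      dist := fun u v hu hv hne => by
        have := hD u v hu hv hne 0
        simp only [tpl, CharP.cast_eq_zero, zero_add, div_one] at this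
        exact this.trans (fr_mono fun _ h => h.2)
      val := hE
      stv := hst
      nop := fun u h => hnp ⟨u, h⟩
      pdX := fun u a b c d =>
        (pd_X hη (by positivity) hG rfl u a b c d).trans (by linarith)
      pdY := fun u b c d => (pd_Y hη (by positivity) hG rfl u b c d).trans (by linarith)
      d0 := (d_up hη hx hG).trans (add_le_add le_rfl (by linarith))
      d1 := fun v => (d_down hη hx hG v).trans (add_le_add le_rfl (by linarith))
      sndX := hX.sound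
      sndY := hY.sound
      corX := hX.cor
      corY := hY.cor
      cmpX := fun u hu h => (hX.compl u hu).trans (by nlinarith [mul_le_mul_of_nonneg_left h hC])
      cmpY := fun u hu h => (hY.compl u hu).trans (by nlinarith [mul_le_mul_of_nonneg_left h hC])
      suc := hsuc
      pre := hpre
      n1 := hcon.1
      n2 := hcon.2 }
  exact no_zero (ε := 2 * (τ / 100)) (by linarith) hΔ hθ (by linarith) (by linarith)
    (hm _).1 (hm _).2 (hm _).1 (hm _).2
    (cmp_of hx (by linarith) hG 2 PS fun _ _ _ => rfl)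
    (cmp_of hx (by linarith) hG 3 (PC Δ) fun _ _ _ => rfl)
    (cmp_of hx (by linarith) hG 4 (PZ Δ θ) fun _ _ _ => rfl) D.low D.facts

end Vale.Agent.P330
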